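-- KEEP
import Mathlib

/-!
# Row 256 (LS paper), BASE 1 : packet systems, experiments, rates          (architect helper207; prefix `bs_`)

DATA ONLY.  No hypothesis on the operators is part of a structure: every analytic fact (isometry, locality, coverings ...) is a THEOREM about
an instance or a `Prop`-valued hypothesis of a generic lemma.

* `PkSys`      a packet system in the INTERACTION PICTURE: states `Kc` (all states are pulled back to time `0`), rows `X` with the row measure `rho k`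
               at length `2^-k`, analysis `An T k b = V_ℓ U(T)` (`b` = generation of the band cutoff, ignored by three of the four models),
               tests `Tst` with their row sets `cell Q T k`, weights `wt Q`, admissibility `ok Q k` (uncertainty floor).
* `PkSys.tz`   the operator `An^* M An` of a scalar mask.
* `PkSys.en`   the row energy `∫ θ |An v|^2 d rho`.
* `Xp P`       an experiment with a FRAME IN TIME: root interval `[i0 2^-k0, (i0+1) 2^-k0)`, root generation `b0`, relative final scale `s = 2^-n`, finitely many stages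
               (depth, generation, one scalar mask per interval of that depth), finitely many labels (final interval, test, fractional weight).
* `Xp.val`     the normalised cubic readout  `s^{-1/2} / (e sqrt κ) * Σ m^{3/2} w^{-1/2}`.
* `Mdl`        a model = family of packet systems + polynomial setups `adm C A` (`C` = package, chosen by the adversary; `A` = tail order, which we may demand).
* `Mdl.Rate`   `Γ ≤ γ` as a Prop;  `Mdl.RateF` the same for free experiments;  `Mdl.RR` the rate on a window of mass exponents;  `Mdl.Gam`.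
-/

set_option autoImplicit false

namespace Claimed.Agent.R256

open MeasureTheory
open scoped ENNReal

/-- a packet system (data only) -/
structure PkSys where
  /-- states -/
  Kc : Type
  [nK : NormedAddCommGroup Kc]
  [iK : InnerProductSpace ℂ Kc]
  [cK : CompleteSpace Kc]
  /-- rows -/
  X : Type
  [mX : MeasurableSpace X]
  /-- multiplicity -/
  Fb : Type
  [nF : NormedAddCommGroup Fb]
  [iF : InnerProductSpace ℂ Fb]
  [cF : CompleteSpace Fb]
  /-- the row measure at length `2^-k` -/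
  rho : ℕ → Measure X
  /-- analysis at time `T`, length `2^-k`, generation `b`, of a state pulled back to time `0` -/
  An : ℝ → (k : ℕ) → ℕ → Kc →L[ℂ] Lp Fb 2 (rho k)
  /-- tests -/
  Tst : Type
  /-- the rows of a test at time `T`, length `2^-k` -/
  cell : Tst → ℝ → ℕ → Set X
  /-- the weight -/
  wt : Tst → ℝ
  /-- admissibility at length `2^-k` -/
  ok : Tst → ℕ → Prop

attribute [instance] PkSys.nK PkSys.iK PkSys.cK PkSys.mX PkSys.nF PkSys.iF PkSys.cF

namespace PkSys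

variable (P : PkSys)

/-- multiplication of a row function by a scalar mask (junk value `0` if the product is not square integrable) -/
noncomputable def mulR (k : ℕ) (M : P.X → ℝ) (F : Lp P.Fb 2 (P.rho k)) : Lp P.Fb 2 (P.rho k) :=
  open Classical in
  if h : MemLp (fun x => ((M x : ℝ) : ℂ) • (F : P.X → P.Fb) x) 2 (P.rho k) then h.toLp _ else 0

/-- `An^* M An` -/
noncomputable def tz (T : ℝ) (k b : ℕ) (M : P.X → ℝ) (v : P.Kc) : P.Kc :=
  ContinuousLinearMap.adjoint (P.An T k b) (P.mulR k M (P.An T k b v))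

/-- the row energy against a weight -/
noncomputable def en (T : ℝ) (k b : ℕ) (θ : P.X → ℝ) (v : P.Kc) : ℝ :=
  ∫ x, θ x * ‖(P.An T k b v : P.X → P.Fb) x‖ ^ 2 ∂(P.rho k)

/-- the row energy of a set of rows -/
noncomputable def ms (T : ℝ) (k b : ℕ) (S : Set P.X) (v : P.Kc) : ℝ :=
  P.en T k b (S.indicator fun _ => 1) v

/-- the plateau class of generation `b`: the states on which the analyses of generation `b` are isometric -/
def Pl (b : ℕ) : Set P.Kc := {v | ∀ (T : ℝ) (k : ℕ), ‖P.An T k b v‖ = ‖v‖}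

/-- `κ`-regularity of a state at `(T, 2^-k)`, generation `b`, for ALL admissible tests -/
def Reg (T : ℝ) (k b : ℕ) (κ : ℝ) (v : P.Kc) : Prop :=
  ∀ Q : P.Tst, P.ok Q k → P.ms T k b (P.cell Q T k) v ≤ κ * P.wt Q

end PkSys

/-- left endpoint of the interval `i` of depth `k` -/
noncomputable def tmL (k i : ℕ) : ℝ := (i : ℝ) / 2 ^ k

/-- the ancestor at depth `k` of the interval `i` of depth `k'` -/
def ancI (k' k i : ℕ) : ℕ := i / 2 ^ (k' - k)

/-- one stage: depth, generation, one scalar mask for every interval of that depth -/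
structure Stg (P : PkSys) where
  k : ℕ
  b : ℕ
  M : ℕ → P.X → ℝ

/-- an experiment -/
structure Xp (P : PkSys) where
  /-- root interval `[i0 2^-k0, (i0+1) 2^-k0)` -/
  k0 : ℕ
  i0 : ℕ
  /-- relative final scale `2^-n` -/
  n : ℕ
  /-- root state, energy BUDGET, regularity, generation of the root analysis -/
  v : P.Kc
  e : ℝ
  ka : ℝ
  b0 : ℕ
  /-- the stages, in the order of application -/
  st : List (Stg P)
  /-- generation of the terminal analysis -/
  bT : ℕ
  /-- labels -/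
  L : ℕ
  iv : Fin L → ℕ
  ts : Fin L → P.Tst
  th : Fin L → P.X → ℝ

namespace Xp

variable {P : PkSys} (E : Xp P)

/-- final depth -/
def kf : ℕ := E.k0 + E.n

/-- the state obtained from `v` along the branch of the interval `i` of depth `k'` through a list of stages -/
noncomputable def run (k' i : ℕ) : List (Stg P) → P.Kc → P.Kc
  | [], v => v
  | σ :: l, v => run k' i l (P.tz (tmL σ.k (ancI k' σ.k i)) σ.k σ.b (σ.M (ancI k' σ.k i)) v)

/-- the state read at the final interval `i` -/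
noncomputable def fin (i : ℕ) : P.Kc := run E.kf i E.st E.v

/-- the mass of a label -/
noncomputable def m (l : Fin E.L) : ℝ := P.en (tmL E.kf (E.iv l)) E.kf E.bT (E.th l) (E.fin (E.iv l))

/-- the weight of a label -/
noncomputable def w (l : Fin E.L) : ℝ := P.wt (E.ts l)

/-- the cubic readout -/
noncomputable def rd : ℝ := ∑ l, E.m l ^ (3 / 2 : ℝ) / Real.sqrt (E.w l)

/-- the normalised functional `𝓑_s` -/
noncomputable def val : ℝ := 2 ^ ((E.n : ℝ) / 2) / (E.e * Real.sqrt E.ka) * E.rd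

/-- the scale -/
noncomputable def s : ℝ := (2 : ℝ)⁻¹ ^ E.n

/-- structural validity (model independent) -/
structure Valid : Prop where
  e_pos : 0 < E.e
  ka_pos : 0 < E.ka
  budget : ‖E.v‖ ^ 2 ≤ E.e
  plat : E.v ∈ P.Pl E.b0
  reg : P.Reg (tmL E.k0 E.i0) E.k0 E.b0 E.ka E.v
  st_dep : ∀ σ ∈ E.st, E.k0 ≤ σ.k ∧ σ.k ≤ E.kf
  st_mono : E.st.Pairwise fun σ σ' => σ.k ≤ σ'.k
  st_meas : ∀ σ ∈ E.st, ∀ i, Measurable (σ.M i)
  st_bd : ∀ σ ∈ E.st, ∀ i x, 0 ≤ σ.M i x ∧ σ.M i x ≤ 1
  iv_in : ∀ l, ancI E.kf E.k0 (E.iv l) = E.i0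
  ts_ok : ∀ l, P.ok (E.ts l) E.kf
  w_pos : ∀ l, 0 < E.w l
  th_meas : ∀ l, Measurable (E.th l)
  th_nn : ∀ l x, 0 ≤ E.th l x
  th_supp : ∀ l x, E.th l x ≠ 0 → x ∈ P.cell (E.ts l) (tmL E.kf (E.iv l)) E.kf
  th_sum : ∀ i x, ∑ l, (if E.iv l = i then E.th l x else 0) ≤ 1

/-- all generations are at most `bm` -/
def GenLe (bm : ℕ) : Prop := E.b0 ≤ bm ∧ E.bT ≤ bm ∧ ∀ σ ∈ E.st, σ.b ≤ bm

/-- all mass exponents `log_s (m / (κ w))` lie in `[lo, hi]` -/
def Hom (lo hi : ℝ) : Prop :=
  ∀ l, E.ka * E.w l * E.s ^ hi ≤ E.m l ∧ E.m l ≤ E.ka * E.w l * E.s ^ lo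

end Xp

/-- a model: a family of packet systems with polynomial setups.   `adm C A p E`: the experiment `E` obeys the setup with package `C` and tail order `A`. -/
structure Mdl where
  Par : Type 1
  /-- the well formed parameters (σ-finite index space, measurable coordinates, `0 < H` ...) -/
  gd : Par → Prop
  sys : Par → PkSys
  adm : ℕ → ℕ → (p : Par) → Xp (sys p) → Prop

namespace Mdl

variable (M : Mdl)

/-- the class `S(C, A)` -/
def Cls (C A : ℕ) (p : M.Par) (E : Xp (M.sys p)) : Prop :=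
  M.gd p ∧ E.Valid ∧ E.st.length ≤ C ∧ E.GenLe C ∧ M.adm C A p E

/-- **`Γ ≤ γ`** -/
def Rate (γ : ℝ) : Prop :=
  ∀ (C : ℕ) (ε : ℝ), 0 < ε → ∃ A n0 : ℕ, ∀ (p : M.Par) (E : Xp (M.sys p)), n0 ≤ E.n → M.Cls C A p E →
    E.val ≤ 2 ^ ((γ + ε) * E.n)

/-- the same for free experiments -/
def RateF (γ : ℝ) : Prop :=
  ∀ (C : ℕ) (ε : ℝ), 0 < ε → ∃ A n0 : ℕ, ∀ (p : M.Par) (E : Xp (M.sys p)), n0 ≤ E.n → M.Cls C A p E → E.st = [] →
    E.val ≤ 2 ^ ((γ + ε) * E.n)

/-- the rate on a window of mass exponents -/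
def RR (γ lo hi : ℝ) : Prop :=
  ∀ (C : ℕ) (ε : ℝ), 0 < ε → ∃ A n0 : ℕ, ∀ (p : M.Par) (E : Xp (M.sys p)), n0 ≤ E.n → M.Cls C A p E → E.Hom lo hi →
    E.val ≤ 2 ^ ((γ + ε) * E.n)

/-- the exponent -/
noncomputable def Gam : ℝ := sInf {γ : ℝ | 0 ≤ γ ∧ M.Rate γ}

theorem bs_rate_mono {γ γ' : ℝ} (h : M.Rate γ) (hg : γ ≤ γ') : M.Rate γ' := by
  intro C ε hε
  obtain ⟨A, n0, H⟩ := h C ε hε
  refine ⟨A, n0, fun p E hn hE => (H p E hn hE).trans ?_⟩
  refine Real.rpow_le_rpow_of_exponent_le (by norm_num) ?_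
  have : (0 : ℝ) ≤ E.n := Nat.cast_nonneg _
  nlinarith

theorem bs_rateF_of_rate {γ : ℝ} (h : M.Rate γ) : M.RateF γ := by
  intro C ε hε
  obtain ⟨A, n0, H⟩ := h C ε hε
  exact ⟨A, n0, fun p E hn hE _ => H p E hn hE⟩

theorem bs_rr_of_rate {γ : ℝ} (h : M.Rate γ) (lo hi : ℝ) : M.RR γ lo hi := by
  intro C ε hε
  obtain ⟨A, n0, H⟩ := h C ε hε
  exact ⟨A, n0, fun p E hn hE _ => H p E hn hE⟩

/-- the infimum is attained -/
theorem bs_rate_gam {γ₀ : ℝ} (h0 : 0 ≤ γ₀) (h : M.Rate γ₀) : M.Rate M.Gam := by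
  intro C ε hε
  have hne : ({γ : ℝ | 0 ≤ γ ∧ M.Rate γ}).Nonempty := ⟨γ₀, h0, h⟩
  obtain ⟨γ, ⟨_, hγ⟩, hlt⟩ := Real.lt_sInf_add_pos hne (half_pos hε)
  obtain ⟨A, n0, H⟩ := hγ C (ε / 2) (half_pos hε)
  refine ⟨A, n0, fun p E hn hE => (H p E hn hE).trans ?_⟩
  refine Real.rpow_le_rpow_of_exponent_le (by norm_num) ?_
  have h1 : (0 : ℝ) ≤ E.n := Nat.cast_nonneg _
  have h2 : γ + ε / 2 ≤ M.Gam + ε := by
    have : γ < M.Gam + ε / 2 := hlt
    linarith
  exact mul_le_mul_of_nonneg_right h2 h1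

theorem bs_gam_nonneg : 0 ≤ M.Gam := Real.sInf_nonneg fun _ h => h.1

theorem bs_gam_le {γ : ℝ} (h0 : 0 ≤ γ) (h : M.Rate γ) : M.Gam ≤ γ :=
  csInf_le ⟨0, fun _ h => h.1⟩ ⟨h0, h⟩

/-- below the exponent the rate fails -/
theorem bs_not_rate {γ : ℝ} (h0 : 0 ≤ γ) (h : γ < M.Gam) : ¬ M.Rate γ := fun hr =>
  absurd (M.bs_gam_le h0 hr) (not_le.mpr h)

/-- failure of a rate = near extremisers with a FIXED package and ARBITRARY tail order at arbitrarily small scales -/
theorem bs_not_rate_iff (γ : ℝ) :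
    ¬ M.Rate γ ↔ ∃ (C : ℕ) (ε : ℝ), 0 < ε ∧ ∀ A n0 : ℕ, ∃ (p : M.Par) (E : Xp (M.sys p)), n0 ≤ E.n ∧ M.Cls C A p E ∧
      2 ^ ((γ + ε) * E.n) < E.val := by
  unfold Rate
  push Not
  rfl

end Mdl

theorem bs_sys_eqns_cite : True := by
  have := @PkSys.mulR.eq_1
  have := @PkSys.tz.eq_1
  have := @PkSys.en.eq_1
  have := @PkSys.ms.eq_1
  have := @PkSys.Reg.eq_1
  have := @PkSys.Pl.eq_1
  have := @Xp.GenLe.eq_1
  have := @tmL.eq_1
  have := @ancI.eq_1
  have := @Xp.kf.eq_1
  have := @Xp.run.eq_1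
  have := @Xp.fin.eq_1
  have := @Xp.m.eq_1
  have := @Xp.w.eq_1
  have := @Xp.rd.eq_1
  have := @Xp.val.eq_1
  have := @Xp.s.eq_1
  have := @Xp.Hom.eq_1
  have := @Mdl.Cls.eq_1
  have := @Mdl.Rate.eq_1
  have := @Mdl.RateF.eq_1
  have := @Mdl.RR.eq_1
  have := @Mdl.Gam.eq_1
  trivial

end Claimed.Agent.R256
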