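-- KEEP
import Claimed.Agent.R256.Base.Sys

/-!
# Row 256 (LS paper), BASE 2 : the two cylinder models          (architect helper207; prefix `bc_`)

02-cylinder.tex l.1-135 (Definitions cyl:def-states, cyl:def-test, cyl:def-setup), in the language of `Base/Sys.lean`.   DEFINITIONS ONLY.

* `Cy5`        the five INSTANTANEOUS coordinates `(X, B_T, Y_T, N, D_T)` of a row at the time `T`
* `CyT`        a test = centres `x b y`, widths `r f`, normal shear `c d al be K` (`be = β(T)`, `d = d(T)`: the coefficients at the time of use)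
* `cyIn Q l z` the five inequalities (cyl:base-test), (cyl:velocity-test), (cyl:position-test) at length `l`
* `cyWt η Q`   `r^(3+η) f^(1-η)`
* `cyBase, cyNor`   the coordinates NORMALISED BY A FRAME `Q0 : CyT` (a frame is a test: centre, boost, base dilation `r`, normal dilation `f`, common shear)
* `CySet`      the polynomial setup in a frame, on the root row measure (frames instead of symmetries)
* `cylCl η`, `cylHyb η : Mdl`.
Classical: `Kc = L²(Ω, m; Fb)`, rows `Ω`, `An = id`.     Hybrid: `Kc = L²(Ω × ℝ_p; Fb)` in MOMENTUM representation (`‖G‖ = ‖g‖`, `G = ĝ / sqrt(2π)`),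
rows `Ω × ℝ_D × ℝ_N`, row measure `σ/(2πH) dm dD dN`, `An T k G (ω,D,N) = ∫ e^{-iTHp²/(2σ)} conj Φ_{D,N}(p) G(ω,p) dp`,
`Φ_{D,N}(p) = (q²/π)^{1/4} e^{-q²(p-σN/H)²/2} e^{-i(p-σN/H)D}`, `q = q_ℓ = sqrt(Hℓ)`.
-/

set_option autoImplicit false

namespace Claimed.Agent.R256

open MeasureTheory
open scoped ENNReal

/-- the five instantaneous coordinates of a row -/
structure Cy5 where
  X : ℝ
  B : ℝ
  Y : ℝ
  N : ℝ
  D : ℝ

/-- a cylinder test (also: a frame) -/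
structure CyT where
  x : ℝ
  b : ℝ
  y : ℝ
  r : ℝ
  f : ℝ
  c : ℝ
  d : ℝ
  al : ℝ
  be : ℝ
  K : ℝ

/-- tilted vertical base coordinate -/
def cyTilt (Q : CyT) (z : Cy5) : ℝ := z.Y - Q.y - 2 * Q.x * (z.B - Q.b)

/-- normal velocity minus the shear -/
def cyVel (Q : CyT) (z : Cy5) : ℝ := z.N - Q.c - Q.al * z.X - Q.be * z.X ^ 2 - Q.K * (z.Y - 2 * z.X * z.B)

/-- normal position minus the shear -/
def cyPos (Q : CyT) (z : Cy5) : ℝ := z.D - Q.d - Q.al * z.B - Q.be * z.Y + Q.K * z.B ^ 2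

/-- the five inequalities of a test at length `l` -/
def cyIn (Q : CyT) (l : ℝ) (z : Cy5) : Prop :=
  |z.X - Q.x| ≤ Q.r ∧ |z.B - Q.b| ≤ l * Q.r ∧ |cyTilt Q z| ≤ l * Q.r ^ 2 ∧ |cyVel Q z| ≤ Q.f ∧ |cyPos Q z| ≤ l * Q.f

/-- the weight -/
noncomputable def cyWt (η : ℝ) (Q : CyT) : ℝ := Q.r ^ (3 + η) * Q.f ^ (1 - η)

/-- base coordinates normalised by a frame -/
noncomputable def cyBase (Q : CyT) (l : ℝ) (z : Cy5) : ℝ × ℝ × ℝ :=
  ((z.X - Q.x) / Q.r, (z.B - Q.b) / (l * Q.r), cyTilt Q z / (l * Q.r ^ 2))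

/-- normal coordinates normalised by a frame -/
noncomputable def cyNor (Q : CyT) (l : ℝ) (z : Cy5) : ℝ × ℝ := (cyVel Q z / Q.f, cyPos Q z / (l * Q.f))

/-- sup norm of the normalised base coordinates -/
noncomputable def cyBaseSz (Q : CyT) (l : ℝ) (z : Cy5) : ℝ :=
  max |(cyBase Q l z).1| (max |(cyBase Q l z).2.1| |(cyBase Q l z).2.2|)

/-- sup norm of the normalised normal coordinates -/
noncomputable def cyNorSz (Q : CyT) (l : ℝ) (z : Cy5) : ℝ := max |(cyNor Q l z).1| |(cyNor Q l z).2|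

/-- **the polynomial cylinder setup in the frame `Q0`** (Definition cyl:def-setup), stated on the root row measure.
`co T x` = instantaneous coordinates of the row `x` at the time `T`;   `jt` : the joint density bound is required (classical model). -/
structure CySet (P : PkSys) (co : ℝ → P.X → Cy5) (η : ℝ) (jt : Prop) (C A : ℕ) (E : Xp P) (Q0 : CyT) : Prop where
  r_pos : 0 < Q0.r
  f_pos : 0 < Q0.f
  /-- `e/κ` and `κ/e` in normalised units -/
  ek_lo : E.s ^ (C : ℝ) * (E.ka * cyWt η Q0) ≤ E.e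
  ek_hi : E.e ≤ E.s ^ (-(C : ℝ)) * (E.ka * cyWt η Q0)
  /-- base support -/
  supp : P.ms (tmL E.k0 E.i0) E.k0 E.b0 {x | E.s ^ (-(C : ℝ)) < cyBaseSz Q0 ((2 : ℝ)⁻¹ ^ E.k0) (co (tmL E.k0 E.i0) x)} E.v = 0
  /-- normal tails -/
  tail : P.ms (tmL E.k0 E.i0) E.k0 E.b0 {x | E.s ^ (-(C : ℝ)) < cyNorSz Q0 ((2 : ℝ)⁻¹ ^ E.k0) (co (tmL E.k0 E.i0) x)} E.v
      ≤ E.s ^ (A : ℝ) * E.e
  /-- marginal base density -/
  dens : ∀ S : Set (ℝ × ℝ × ℝ), MeasurableSet S →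
    ENNReal.ofReal (P.ms (tmL E.k0 E.i0) E.k0 E.b0 {x | cyBase Q0 ((2 : ℝ)⁻¹ ^ E.k0) (co (tmL E.k0 E.i0) x) ∈ S} E.v)
      ≤ ENNReal.ofReal (E.s ^ (-(C : ℝ)) * E.e) * volume S
  /-- joint density -/
  densJ : jt → ∀ S : Set ((ℝ × ℝ × ℝ) × (ℝ × ℝ)), MeasurableSet S →
    ENNReal.ofReal (P.ms (tmL E.k0 E.i0) E.k0 E.b0
        {x | (cyBase Q0 ((2 : ℝ)⁻¹ ^ E.k0) (co (tmL E.k0 E.i0) x), cyNor Q0 ((2 : ℝ)⁻¹ ^ E.k0) (co (tmL E.k0 E.i0) x)) ∈ S} E.v)
      ≤ ENNReal.ofReal (E.s ^ (-(C : ℝ)) * E.e) * volume S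

/-! ### the classical cylinder -/

/-- parameters of a classical cylinder system: an arbitrary index space with five coordinates at time `0`, arbitrary multiplicity -/
structure CclPar : Type 1 where
  Om : Type
  [mO : MeasurableSpace Om]
  m : Measure Om
  Fb : Type
  [nF : NormedAddCommGroup Fb]
  [iF : InnerProductSpace ℂ Fb]
  [cF : CompleteSpace Fb]
  X : Om → ℝ
  B : Om → ℝ
  Y : Om → ℝ
  N : Om → ℝ
  D : Om → ℝ

attribute [instance] CclPar.mO CclPar.nF CclPar.iF CclPar.cF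

/-- the free flow (cyl:base-flow) -/
def CclPar.co (p : CclPar) (T : ℝ) (ω : p.Om) : Cy5 :=
  ⟨p.X ω, p.B ω + T * p.X ω, p.Y ω + T * p.X ω ^ 2, p.N ω, p.D ω + T * p.N ω⟩

/-- the classical cylinder system -/
noncomputable def CclPar.sys (η : ℝ) (p : CclPar) : PkSys where
  Kc := Lp p.Fb 2 p.m
  X := p.Om
  Fb := p.Fb
  rho := fun _ => p.m
  An := fun _ _ _ => ContinuousLinearMap.id ℂ _
  Tst := CyT
  cell := fun Q T k => {ω | cyIn Q ((2 : ℝ)⁻¹ ^ k) (p.co T ω)}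
  wt := cyWt η
  ok := fun Q _ => 0 < Q.r ∧ 0 < Q.f

/-- measurability of the data -/
structure CclPar.Ok (p : CclPar) : Prop where
  sf : SigmaFinite p.m
  mX : Measurable p.X
  mB : Measurable p.B
  mY : Measurable p.Y
  mN : Measurable p.N
  mD : Measurable p.D

/-- **the classical cylinder model** -/
noncomputable def cylCl (η : ℝ) : Mdl where
  Par := CclPar
  gd := CclPar.Ok
  sys := CclPar.sys η
  adm := fun C A p E => ∃ Q0 : CyT, CySet (p.sys η) p.co η True C A E Q0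

/-! ### the hybrid cylinder -/

/-- parameters of a hybrid cylinder system -/
structure ChyPar : Type 1 where
  Om : Type
  [mO : MeasurableSpace Om]
  m : Measure Om
  Fb : Type
  [nF : NormedAddCommGroup Fb]
  [iF : InnerProductSpace ℂ Fb]
  [cF : CompleteSpace Fb]
  X : Om → ℝ
  B : Om → ℝ
  Y : Om → ℝ
  sg : Om → ℝ
  H : ℝ

attribute [instance] ChyPar.mO ChyPar.nF ChyPar.iF ChyPar.cF

namespace ChyPar

variable (p : ChyPar)

/-- `d_ℓ = (H/ℓ)^{1/2}` -/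
noncomputable def dl (k : ℕ) : ℝ := Real.sqrt (p.H * 2 ^ k)

/-- `q_ℓ = (Hℓ)^{1/2}` -/
noncomputable def ql (k : ℕ) : ℝ := Real.sqrt (p.H / 2 ^ k)

/-- instantaneous coordinates of the row `(ω, D, N)` -/
def co (T : ℝ) (x : p.Om × ℝ × ℝ) : Cy5 :=
  ⟨p.X x.1, p.B x.1 + T * p.X x.1, p.Y x.1 + T * p.X x.1 ^ 2, x.2.2, x.2.1⟩

/-- the row measure `σ/(2πH) dm dD dN` -/
noncomputable def rw : Measure (p.Om × ℝ × ℝ) :=
  (p.m.prod (volume : Measure (ℝ × ℝ))).withDensity fun x => ENNReal.ofReal (p.sg x.1 / (2 * Real.pi * p.H))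

/-- `e^{-iTHu²/(2σ)} conj Φ_{D,N}(u)` -/
noncomputable def pk (T : ℝ) (k : ℕ) (x : p.Om × ℝ × ℝ) (u : ℝ) : ℂ :=
  ((p.ql k ^ 2 / Real.pi) ^ (1 / 4 : ℝ) * Real.exp (-(p.ql k ^ 2 * (u - p.sg x.1 * x.2.2 / p.H) ^ 2 / 2)) : ℝ)
    * Complex.exp (Complex.I * (((u - p.sg x.1 * x.2.2 / p.H) * x.2.1 - T * p.H * u ^ 2 / (2 * p.sg x.1) : ℝ) : ℂ))

/-- the analysed state as a function on rows -/
noncomputable def row (T : ℝ) (k : ℕ) (G : Lp p.Fb 2 (p.m.prod (volume : Measure ℝ))) (x : p.Om × ℝ × ℝ) : p.Fb :=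
  ∫ u, p.pk T k x u • (G : p.Om × ℝ → p.Fb) (x.1, u)

/-- the analysis operator (junk value `0` unless the formula defines a bounded operator: THEOREM of the instance unit) -/
noncomputable def an (T : ℝ) (k : ℕ) : Lp p.Fb 2 (p.m.prod (volume : Measure ℝ)) →L[ℂ] Lp p.Fb 2 p.rw :=
  open Classical in
  if h : ∃ L : Lp p.Fb 2 (p.m.prod (volume : Measure ℝ)) →L[ℂ] Lp p.Fb 2 p.rw, ∀ G, (L G : p.Om × ℝ × ℝ → p.Fb) =ᵐ[p.rw] p.row T k G
  then h.choose else 0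

/-- the hybrid cylinder system -/
noncomputable def sys (η : ℝ) : PkSys where
  Kc := Lp p.Fb 2 (p.m.prod (volume : Measure ℝ))
  X := p.Om × ℝ × ℝ
  Fb := p.Fb
  rho := fun _ => p.rw
  An := fun T k _ => p.an T k
  Tst := CyT
  cell := fun Q T k => {x | cyIn Q ((2 : ℝ)⁻¹ ^ k) (p.co T x)}
  wt := cyWt η
  ok := fun Q k => 0 < Q.r ∧ 0 < Q.f ∧ p.dl k ≤ Q.f

/-- measurability and ranges of the data -/
structure Ok : Prop where
  sf : SigmaFinite p.m
  mX : Measurable p.X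
  mB : Measurable p.B
  mY : Measurable p.Y
  mS : Measurable p.sg
  sg_rg : ∀ ω, 1 ≤ p.sg ω ∧ p.sg ω ≤ 2
  H_pos : 0 < p.H

end ChyPar

/-- **the hybrid cylinder model**;   `H' = H / (L F0²)` is the Planck parameter in the frame -/
noncomputable def cylHyb (η : ℝ) : Mdl where
  Par := ChyPar
  gd := ChyPar.Ok
  sys := fun p => p.sys η
  adm := fun C A p E => ∃ Q0 : CyT, CySet (p.sys η) p.co η False C A E Q0 ∧
    E.s ^ (C : ℝ) ≤ p.H * 2 ^ E.k0 / Q0.f ^ 2 ∧ p.H * 2 ^ E.k0 / Q0.f ^ 2 ≤ E.s ^ (-(C : ℝ))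

theorem bc_cyl_eqns_cite : True := by
  have := @cyTilt.eq_1
  have := @cyVel.eq_1
  have := @cyPos.eq_1
  have := @cyIn.eq_1
  have := @cyWt.eq_1
  have := @cyBase.eq_1
  have := @cyNor.eq_1
  have := @cyBaseSz.eq_1
  have := @cyNorSz.eq_1
  have := @CclPar.co.eq_1
  have := @CclPar.sys.eq_1
  have := @cylCl.eq_1
  have := @ChyPar.dl.eq_1
  have := @ChyPar.ql.eq_1
  have := @ChyPar.co.eq_1
  have := @ChyPar.rw.eq_1
  have := @ChyPar.pk.eq_1
  have := @ChyPar.row.eq_1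
  have := @ChyPar.an.eq_1
  have := @ChyPar.sys.eq_1
  have := @cylHyb.eq_1
  trivial

end Claimed.Agent.R256
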