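-- KEEP
import Claimed.Agent.R256.Base.Sys
import Claimed.Agent.R256.Rt.Tests

/-!
# Row 256 (LS paper), BASE : the test geometry of the ROUND models          (helper216, chief Rt; prefix `rd`)          DEFINITIONS ONLY

Source: 07-round-transfer.tex l.11-92.   The geometry itself (rows, rays, polynomials, `RtTest`, `RtCover`) is `Rt/Tests.lean`.
* `RdTst`        a round / hyperquadric test WITHOUT its length (the length `2^-k` is supplied by the cut): width `r`, thickness `f`, centre, polynomial.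
* `Q.toT k`      the `RtTest` at length `2^-k`;   `Q.rows k = (Q.toT k).set 1`;   `Q.wt η = r⁴ f^(1-η)`.
* `RdFrm`        a FRAME (decision B5 of report 909): parabolic dilation `r`, centre `(As, bs, ys)` at the root time.   `φ.box k M` = rows whose coordinates normalised by the frame at length `2^-k` are `≤ M`.
* `φ.nc k p`     the normalised coordinates `(x, V, z) ∈ (ℝ×ℝ) × (ℝ×ℝ) × ℝ` of a row (for density hypotheses).
* `rdD H k`      the aperture `d_ℓ = (H/ℓ)^{1/2}`, `ℓ = 2^-k`.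
* `RdSet`        the polynomial setup in a frame, on the root row measure at the root generation `b0` (same style as `CySet` of `Base/Cyl.lean`).
-/

set_option autoImplicit false

namespace Claimed.Agent.R256

open MeasureTheory
open scoped ENNReal

/-- a test of the round models, without its length -/
structure RdTst where
  r : ℝ
  f : ℝ
  As : ℝ × ℝ
  bs : ℝ × ℝ
  ys : ℝ
  n : RtPoly

/-- the length of the cut `k` -/
noncomputable def rdLen (k : ℕ) : ℝ := (2 : ℝ)⁻¹ ^ k

namespace RdTst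

variable (Q : RdTst)

/-- the test at length `2^-k` -/
noncomputable def toT (k : ℕ) : RtTest := ⟨rdLen k, Q.r, Q.f, Q.As, Q.bs, Q.ys, Q.n⟩

/-- its rows -/
def rows (k : ℕ) : Set RtRow := (Q.toT k).set 1

/-- the weight `r⁴ f^(1-η)` -/
noncomputable def wt (η : ℝ) : ℝ := Q.r ^ 4 * Q.f ^ (1 - η)

end RdTst

/-- a frame of the round models -/
structure RdFrm where
  r : ℝ
  As : ℝ × ℝ
  bs : ℝ × ℝ
  ys : ℝ

namespace RdFrm

variable (φ : RdFrm)

/-- the frame as a round test at length `2^-k` -/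
noncomputable def toT (k : ℕ) : RtTest := rtRound (rdLen k) φ.r φ.As φ.bs φ.ys

/-- rows with normalised coordinates `≤ M` -/
def box (k : ℕ) (M : ℝ) : Set RtRow := (φ.toT k).box M

/-- normalised coordinates `(x, V, z)` -/
noncomputable def nc (k : ℕ) (p : RtRow) : (ℝ × ℝ) × (ℝ × ℝ) × ℝ := ((φ.toT k).x p, (φ.toT k).V p, (φ.toT k).z p)

end RdFrm

/-- the aperture `d_ℓ = (H/ℓ)^{1/2}` at `ℓ = 2^-k` -/
noncomputable def rdD (H : ℝ) (k : ℕ) : ℝ := Real.sqrt (H / rdLen k)

/-- the packet width `q_ℓ = (H ℓ)^{1/2}` at `ℓ = 2^-k` -/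
noncomputable def rdQ (H : ℝ) (k : ℕ) : ℝ := Real.sqrt (H * rdLen k)

/-- **the polynomial round setup in the frame `φ`** (Definition rt:model), stated on the root row measure.
`co T x` = instantaneous phase point of the row `x` at the time `T`;   `jt` : the phase density bound is required (classical model; a theorem for waves). -/
structure RdSet (P : PkSys) (co : ℝ → P.X → RtRow) (jt : Prop) (C A : ℕ) (E : Xp P) (φ : RdFrm) : Prop where
  r_pos : 0 < φ.r
  /-- `e/κ` and `κ/e` in normalised units -/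
  ek_lo : E.s ^ (C : ℝ) * (E.ka * φ.r ^ 4) ≤ E.e
  ek_hi : E.e ≤ E.s ^ (-(C : ℝ)) * (E.ka * φ.r ^ 4)
  /-- row energy outside a finite-power phase box -/
  tail : P.ms (tmL E.k0 E.i0) E.k0 E.b0 {x | co (tmL E.k0 E.i0) x ∉ φ.box E.k0 (E.s ^ (-(C : ℝ)))} E.v ≤ E.s ^ (A : ℝ) * E.e
  /-- classical model: EXACT support in the phase box -/
  supp : jt → P.ms (tmL E.k0 E.i0) E.k0 E.b0 {x | co (tmL E.k0 E.i0) x ∉ φ.box E.k0 (E.s ^ (-(C : ℝ)))} E.v = 0
  /-- phase density in normalised coordinates -/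
  dens : jt → ∀ S : Set ((ℝ × ℝ) × (ℝ × ℝ) × ℝ), MeasurableSet S →
    ENNReal.ofReal (P.ms (tmL E.k0 E.i0) E.k0 E.b0 {x | φ.nc E.k0 (co (tmL E.k0 E.i0) x) ∈ S} E.v)
      ≤ ENNReal.ofReal (E.s ^ (-(C : ℝ)) * E.e) * volume S

theorem rd_geo_eqns_cite : True := by
  have := @rdLen.eq_1
  have := @RdTst.toT.eq_1
  have := @RdTst.rows.eq_1
  have := @RdTst.wt.eq_1
  have := @RdFrm.toT.eq_1
  have := @RdFrm.box.eq_1
  have := @RdFrm.nc.eq_1
  have := @rdD.eq_1
  have := @rdQ.eq_1
  trivial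

theorem rdLen_pos (k : ℕ) : 0 < rdLen k := by
  unfold rdLen
  positivity

theorem RdTst.wt_eq (Q : RdTst) (η : ℝ) (k : ℕ) : (Q.toT k).w η = Q.wt η := rfl

theorem RdTst.unc_eq (Q : RdTst) (k : ℕ) : (Q.toT k).unc = Q.r * Q.f := rfl

end Claimed.Agent.R256
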