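-- KEEP
import Claimed.Agent.R256.Base.RndGeo

/-!
# Row 256 (LS paper), BASE : the CLASSICAL ROUND model `rndCl η`          (helper216, chief Rt; prefix `rd`)          DEFINITIONS ONLY

Source: 07-round-transfer.tex l.11-24, 57-92 (Def rt:model, classical half; Def rt:regularity with `d_ℓ = 0`).   Decisions B1-B6 of report 909; style of `Base/Cyl.lean`.
* `RdClPar`      an arbitrary index space `(Om, m)` of particles with coordinates `(A, B, Y)` AT TIME `0` and an arbitrary Hilbert multiplicity `Fb`.
* states `Lp Fb 2 m`; rows = particles; `An = id` (interaction picture: the flow sits in `cell`);   `cell Q T k = {ω | the ray of ω at time T lies in the test}`;   no uncertainty floor.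
* `adm C A p E` : data measurable + `RdSet` in SOME frame, with the phase density bound.
-/

set_option autoImplicit false

namespace Claimed.Agent.R256

open MeasureTheory
open scoped ENNReal

/-- parameters of the classical round model -/
structure RdClPar : Type 1 where
  Om : Type
  [mOm : MeasurableSpace Om]
  m : Measure Om
  Fb : Type
  [nF : NormedAddCommGroup Fb]
  [iF : InnerProductSpace ℂ Fb]
  [cF : CompleteSpace Fb]
  A : Om → ℝ × ℝ
  B : Om → ℝ × ℝ
  Y : Om → ℝ
  sf : SigmaFinite m
  mA : Measurable A
  mB : Measurable B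
  mY : Measurable Y

attribute [instance] RdClPar.mOm RdClPar.nF RdClPar.iF RdClPar.cF

namespace RdClPar

variable (p : RdClPar)

/-- the phase point of a particle at time `T` -/
def co (T : ℝ) (ω : p.Om) : RtRow := (⟨p.A ω, p.B ω, p.Y ω⟩ : RtRow).flow T

/-- the packet system of the classical round model -/
noncomputable def sys (η : ℝ) : PkSys where
  Kc := Lp p.Fb 2 p.m
  X := p.Om
  Fb := p.Fb
  rho := fun _ => p.m
  An := fun _ _ _ => ContinuousLinearMap.id ℂ _
  Tst := RdTst
  cell := fun Q T k => {ω | p.co T ω ∈ Q.rows k}
  wt := fun Q => Q.wt η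
  ok := fun Q k => (Q.toT k).Adm 1

/-- measurability of the data (BUNDLED in the parameters, so that `Gen.tight : ∀ p, ..` makes sense) -/
def Ok : Prop := SigmaFinite p.m ∧ Measurable p.A ∧ Measurable p.B ∧ Measurable p.Y

theorem ok : p.Ok := ⟨p.sf, p.mA, p.mB, p.mY⟩

end RdClPar

/-- **the classical round model** -/
noncomputable def rndCl (η : ℝ) : Mdl where
  Par := RdClPar
  gd := fun p => p.Ok
  sys := fun p => p.sys η
  adm := fun C A p E => ∃ φ : RdFrm, RdSet (p.sys η) p.co True C A E φ

theorem rd_cl_eqns_cite : True := by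
  have := @RdClPar.co.eq_1
  have := @RdClPar.sys.eq_1
  have := @RdClPar.Ok.eq_1
  have := @rndCl.eq_1
  trivial

end Claimed.Agent.R256
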