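-- KEEP
import Claimed.Agent.R256.Base.RndGeo

/-!
# Row 256 (LS paper), BASE : the ROUND WAVE model `rndWav η`          (helper216, chief Rt; prefix `rd`)          DEFINITIONS ONLY

Source: 07-round-transfer.tex l.24-55, 57-92 (Def rt:model, wave half; Def rt:regularity).   Decisions B1-B6 of report 909; style of `Base/Cyl.lean`.
* `RdWvPar`   the Planck parameter `H`.      The model is SCALAR (decision 20:25Z, request of helper223): secs. 7-9 never produce a passive index or multiplicity on the round wave side.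
* states      `Kc = L²(ℝ²_ξ × ℝ_ρ; ℂ)` in MOMENTUM representation: `G(ξ, ρ) = v̂(ξ, -ρ) / (2π)^{3/2}`, `‖G‖ = ‖v‖`.
* rows        `(A, b, y)`, row measure `d_ℓ^{-2} dA db dy`.
* analysis    `An T k β G (A, b, y) = (2π)^{-3/2} ∫ e^{i(ξ·b - ρ y - T|ξ|²/(4ρ))} χ_β(Hρ) ψ((ξ/(2ρ) - A)/d_ℓ) G(ξ, ρ) dξ dρ`   (`= V_ℓ U(T)`, interaction picture).
* `rdChi β`   ONE fixed nested family of band cutoffs: `= 1` on `[2^-(β+4), 2^(β+4)]` (the PLATEAU of generation `β`), `= 0` off `[2^-(β+5), 2^(β+5)]`;   supp `χ_β` = plateau of `χ_{β+1}`.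
* `rdPsi`     ONE fixed smooth radial bump, `= const` on `|A| ≤ 1`, `= 0` for `|A|² ≥ 2`, `∫ ψ² = 1`.
* tests       `RdTst` with the uncertainty floor `d_ℓ ≤ r f`.
* `adm`       `RdSet` in some frame (no density hypothesis: Bernstein) + `H/(ℓ₀ r²)` of finite-power size.   ROOT DATA ONLY; the plateau condition is `Xp.Valid.plat`, the bound on the generations is in `Mdl.Cls`.
-/

set_option autoImplicit false

namespace Claimed.Agent.R256

open MeasureTheory
open scoped ENNReal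

/-- the band cutoff of generation `β` -/
noncomputable def rdChi (β : ℕ) (t : ℝ) : ℝ :=
  Real.smoothTransition (2 ^ (β + 5) * t - 1) * Real.smoothTransition (2 - t / 2 ^ (β + 4))

/-- the plateau of generation `β` -/
def rdPlat (β : ℕ) : Set ℝ := Set.Icc ((2 : ℝ)⁻¹ ^ (β + 4)) (2 ^ (β + 4))

/-- the unnormalised angular bump -/
noncomputable def rdPsi0 (A : ℝ × ℝ) : ℝ := Real.smoothTransition (2 - rtSq A)

/-- the angular bump, `∫ ψ² = 1` -/
noncomputable def rdPsi (A : ℝ × ℝ) : ℝ := rdPsi0 A / Real.sqrt (∫ A', rdPsi0 A' ^ 2)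

/-- parameters of the round wave model: the Planck parameter -/
structure RdWvPar : Type 1 where
  H : ℝ
  H_pos : 0 < H

namespace RdWvPar

variable (p : RdWvPar)

/-- momentum space `(ξ, ρ)` -/
abbrev Mo : Type := (ℝ × ℝ) × ℝ

/-- phase space `(A, b, y)` -/
abbrev Ph : Type := (ℝ × ℝ) × (ℝ × ℝ) × ℝ

/-- the phase point of a row (independent of the time) -/
def co (_T : ℝ) (x : Ph) : RtRow := ⟨x.1, x.2.1, x.2.2⟩

/-- the row measure `d_ℓ^{-2} dA db dy` -/
noncomputable def rw (k : ℕ) : Measure Ph := ENNReal.ofReal (rdLen k / p.H) • (volume : Measure Ph)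

/-- the packet `(2π)^{-3/2} e^{i(ξ·b - ρ y - T|ξ|²/(4ρ))} χ_β(Hρ) ψ((ξ/(2ρ) - A)/d_ℓ)` -/
noncomputable def pk (T : ℝ) (k β : ℕ) (x : Ph) (q : Mo) : ℂ :=
  (((2 * Real.pi) ^ (-(3 / 2) : ℝ) * rdChi β (p.H * q.2) * rdPsi ((rdD p.H k)⁻¹ • ((2 * q.2)⁻¹ • q.1 - x.1)) : ℝ) : ℂ)
    * Complex.exp (Complex.I * ((rtIp q.1 x.2.1 - q.2 * x.2.2 - T * rtSq q.1 / (4 * q.2) : ℝ) : ℂ))

/-- the analysed state as a function on rows -/
noncomputable def row (T : ℝ) (k β : ℕ) (G : Lp ℂ 2 (volume : Measure Mo)) (x : Ph) : ℂ :=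
  ∫ q, p.pk T k β x q * (G : Mo → ℂ) q

/-- the analysis operator (junk value `0` unless the formula defines a bounded operator: THEOREM `rt_w1_an_spec` of the instance unit) -/
noncomputable def an (T : ℝ) (k β : ℕ) : Lp ℂ 2 (volume : Measure Mo) →L[ℂ] Lp ℂ 2 (p.rw k) :=
  open Classical in
  if h : ∃ L : Lp ℂ 2 (volume : Measure Mo) →L[ℂ] Lp ℂ 2 (p.rw k), ∀ G, (L G : Ph → ℂ) =ᵐ[p.rw k] p.row T k β G
  then h.choose else 0

/-- the round wave system -/
noncomputable def sys (η : ℝ) : PkSys where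
  Kc := Lp ℂ 2 (volume : Measure Mo)
  X := Ph
  Fb := ℂ
  rho := p.rw
  An := p.an
  Tst := RdTst
  cell := fun Q T k => {x | co T x ∈ Q.rows k}
  wt := fun Q => Q.wt η
  ok := fun Q k => (Q.toT k).Adm 1 ∧ rdD p.H k ≤ Q.r * Q.f

/-- ranges of the data (BUNDLED in the parameters, so that `Gen.tight : ∀ p, ..` makes sense) -/
def Ok : Prop := 0 < p.H

theorem ok : p.Ok := p.H_pos

/-- the spectrum of a state lies in the plateau of generation `β`   (THEOREM of the instance unit: `= (p.sys η).Pl β`) -/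
def Spec (β : ℕ) (G : Lp ℂ 2 (volume : Measure Mo)) : Prop :=
  ∀ᵐ z ∂(volume : Measure Mo), (G : Mo → ℂ) z ≠ 0 → p.H * z.2 ∈ rdPlat β

end RdWvPar

/-- **the round wave model**;   `H / (ℓ₀ r²)` is the Planck parameter in the frame.   The setup sees only the root data (`Gen.AdmRoot`). -/
noncomputable def rndWav (η : ℝ) : Mdl where
  Par := RdWvPar
  gd := fun p => p.Ok
  sys := fun p => p.sys η
  adm := fun C A p E => ∃ φ : RdFrm, RdSet (p.sys η) RdWvPar.co False C A E φ ∧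
    E.s ^ (C : ℝ) ≤ p.H / (rdLen E.k0 * φ.r ^ 2) ∧ p.H / (rdLen E.k0 * φ.r ^ 2) ≤ E.s ^ (-(C : ℝ))

theorem rd_wv_eqns_cite : True := by
  have := @rdChi.eq_1
  have := @rdPlat.eq_1
  have := @rdPsi0.eq_1
  have := @rdPsi.eq_1
  have := @RdWvPar.co.eq_1
  have := @RdWvPar.rw.eq_1
  have := @RdWvPar.pk.eq_1
  have := @RdWvPar.row.eq_1
  have := @RdWvPar.an.eq_1
  have := @RdWvPar.sys.eq_1
  have := @RdWvPar.Spec.eq_1
  have := @RdWvPar.Ok.eq_1
  have := @rndWav.eq_1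
  trivial

end Claimed.Agent.R256
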