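-- KEEP
import Claimed.Agent.R256.Base.RndWav

/-!
# Row 256 (LS paper), BASE : elementary facts on the two fixed cutoffs `rdChi`, `rdPsi` of `Base/RndWav.lean`          (helper76; prefix `rd_`)          SORRY-FREE

* `rd_chi_nonneg, rd_chi_le_one, rd_chi_one` (`= 1` on the plateau `rdPlat β`), `rd_chi_supp` (support inside the OPEN band `(2^-(β+5), 2^(β+5))`),
  `rd_chi_supp_plat` (support ⊆ plateau of `β+1`), `rd_chi_nest` (`β < β'` : `χ_β' = 1` on `supp χ_β`), `rd_chi_mul` (`χ_β' χ_β = χ_β`), `rd_plat_mono`, `rd_chi_contDiff`.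
* `rd_psi0_*`, `rd_psiN_pos`, `rd_psi_norm : ∫ ψ² = 1`, `rd_psi_nonneg`, `rd_psi_supp` (`|x|² < 2`), `rd_psi_le`, `rd_psi_contDiff`, `rd_psi_compact`.
-/

set_option autoImplicit false

namespace Claimed.Agent.R256

open MeasureTheory
open scoped ENNReal ContDiff

theorem rd_chi_nonneg (b : ℕ) (x : ℝ) : 0 ≤ rdChi b x :=
  mul_nonneg (Real.smoothTransition.nonneg _) (Real.smoothTransition.nonneg _)

theorem rd_chi_le_one (b : ℕ) (x : ℝ) : rdChi b x ≤ 1 :=
  mul_le_one₀ (Real.smoothTransition.le_one _) (Real.smoothTransition.nonneg _) (Real.smoothTransition.le_one _)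

/-- the plateau -/
theorem rd_chi_one {b : ℕ} {x : ℝ} (h : x ∈ rdPlat b) : rdChi b x = 1 := by
  obtain ⟨h1, h2⟩ := h
  have hb : (0 : ℝ) < 2 ^ (b + 4) := by positivity
  unfold rdChi
  rw [Real.smoothTransition.one_of_one_le, Real.smoothTransition.one_of_one_le, one_mul]
  · have : x / 2 ^ (b + 4) ≤ 1 := (div_le_one hb).2 h2
    linarith
  · rw [inv_pow] at h1
    have : 1 ≤ 2 ^ (b + 4) * x := by
      have := mul_le_mul_of_nonneg_left h1 hb.le
      rwa [mul_inv_cancel₀ hb.ne'] at this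
    rw [show b + 5 = (b + 4) + 1 from rfl, pow_succ]
    linarith

/-- the support -/
theorem rd_chi_supp {b : ℕ} {x : ℝ} (h : rdChi b x ≠ 0) : (2 : ℝ)⁻¹ ^ (b + 5) < x ∧ x < 2 ^ (b + 5) := by
  have hb : (0 : ℝ) < 2 ^ (b + 4) := by positivity
  have hb1 : (0 : ℝ) < 2 ^ (b + 5) := by positivity
  unfold rdChi at h
  obtain ⟨h1, h2⟩ := mul_ne_zero_iff.1 h
  constructor
  · by_contra hx
    push Not at hx
    apply h1
    apply Real.smoothTransition.zero_of_nonpos
    rw [inv_pow] at hx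
    have := mul_le_mul_of_nonneg_left hx hb1.le
    rw [mul_inv_cancel₀ hb1.ne'] at this
    linarith
  · by_contra hx
    push Not at hx
    apply h2
    apply Real.smoothTransition.zero_of_nonpos
    have : 2 ≤ x / 2 ^ (b + 4) := by
      rw [le_div_iff₀ hb]
      rw [show b + 5 = (b + 4) + 1 from rfl, pow_succ] at hx
      linarith
    linarith

theorem rd_plat_mono {b b' : ℕ} (h : b ≤ b') : rdPlat b ⊆ rdPlat b' := by
  intro x hx
  refine ⟨le_trans ?_ hx.1, hx.2.trans (pow_le_pow_right₀ (by norm_num) (by omega))⟩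
  exact pow_le_pow_of_le_one (by norm_num) (by norm_num) (by omega)

/-- the support lies in the next plateau -/
theorem rd_chi_supp_plat {b : ℕ} {x : ℝ} (h : rdChi b x ≠ 0) : x ∈ rdPlat (b + 1) :=
  ⟨(rd_chi_supp h).1.le, (rd_chi_supp h).2.le⟩

/-- the family is nested: every later cutoff is `1` on the support -/
theorem rd_chi_nest {b b' : ℕ} (hb : b < b') {x : ℝ} (h : rdChi b x ≠ 0) : rdChi b' x = 1 :=
  rd_chi_one (rd_plat_mono hb (rd_chi_supp_plat h))

theorem rd_chi_mul {b b' : ℕ} (hb : b < b') (x : ℝ) : rdChi b' x * rdChi b x = rdChi b x := by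
  by_cases h : rdChi b x = 0
  · rw [h, mul_zero]
  · rw [rd_chi_nest hb h, one_mul]

theorem rd_chi_contDiff (b : ℕ) : ContDiff ℝ ∞ (rdChi b) := by
  unfold rdChi
  have h1 : ContDiff ℝ ∞ fun x : ℝ => (2 : ℝ) ^ (b + 5) * x - 1 := by fun_prop
  have h2 : ContDiff ℝ ∞ fun x : ℝ => 2 - x / (2 : ℝ) ^ (b + 4) := by fun_prop
  exact (Real.smoothTransition.contDiff.comp h1).mul (Real.smoothTransition.contDiff.comp h2)

theorem rd_psi0_nonneg (x : ℝ × ℝ) : 0 ≤ rdPsi0 x := Real.smoothTransition.nonneg _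

theorem rd_psi0_le_one (x : ℝ × ℝ) : rdPsi0 x ≤ 1 := Real.smoothTransition.le_one _

theorem rd_psi0_one {x : ℝ × ℝ} (h : rtSq x ≤ 1) : rdPsi0 x = 1 :=
  Real.smoothTransition.one_of_one_le (by linarith)

theorem rd_psi0_supp {x : ℝ × ℝ} (h : rdPsi0 x ≠ 0) : rtSq x < 2 := by
  by_contra hx
  push Not at hx
  exact h (Real.smoothTransition.zero_of_nonpos (by linarith))

theorem rd_psi0_contDiff : ContDiff ℝ ∞ rdPsi0 := by
  unfold rdPsi0 rtSq
  have h1 : ContDiff ℝ ∞ fun x : ℝ × ℝ => 2 - (x.1 ^ 2 + x.2 ^ 2) := by fun_prop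
  exact Real.smoothTransition.contDiff.comp h1

theorem rd_psi0_compact : HasCompactSupport rdPsi0 := by
  refine HasCompactSupport.intro (isCompact_closedBall (0 : ℝ × ℝ) 2) fun x hx => ?_
  by_contra h
  apply hx
  have h2 := rd_psi0_supp h
  unfold rtSq at h2
  rw [mem_closedBall_zero_iff, Prod.norm_def, Real.norm_eq_abs, Real.norm_eq_abs]
  refine max_le ?_ ?_
  · exact abs_le_of_sq_le_sq' (by nlinarith [sq_nonneg x.2]) (by norm_num) |> fun h => abs_le.2 h
  · exact abs_le_of_sq_le_sq' (by nlinarith [sq_nonneg x.1]) (by norm_num) |> fun h => abs_le.2 h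

theorem rd_psiN_pos : 0 < ∫ x : ℝ × ℝ, rdPsi0 x ^ 2 := by
  have hc : Continuous fun x : ℝ × ℝ => rdPsi0 x ^ 2 := (rd_psi0_contDiff.continuous).pow 2
  have hs : HasCompactSupport fun x : ℝ × ℝ => rdPsi0 x ^ 2 := by
    refine rd_psi0_compact.mono fun x hx => ?_
    simp only [Function.mem_support] at hx ⊢
    exact fun h => hx (by rw [h]; norm_num)
  refine hc.integral_pos_of_hasCompactSupport_nonneg_nonzero hs (fun x => sq_nonneg _) (x := 0) ?_
  rw [rd_psi0_one (by simp [rtSq])]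
  norm_num

/-- `∫ ψ² = 1` -/
theorem rd_psi_norm : ∫ x : ℝ × ℝ, rdPsi x ^ 2 = 1 := by
  have h : ∀ x : ℝ × ℝ, rdPsi x ^ 2 = rdPsi0 x ^ 2 / ∫ x : ℝ × ℝ, rdPsi0 x ^ 2 := by
    intro x
    unfold rdPsi
    rw [div_pow, Real.sq_sqrt rd_psiN_pos.le]
  simp only [h]
  rw [integral_div]
  exact div_self rd_psiN_pos.ne'

theorem rd_psi_nonneg (x : ℝ × ℝ) : 0 ≤ rdPsi x := div_nonneg (rd_psi0_nonneg x) (Real.sqrt_nonneg _)

theorem rd_psi_le (x : ℝ × ℝ) : rdPsi x ≤ 1 / Real.sqrt (∫ x : ℝ × ℝ, rdPsi0 x ^ 2) :=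
  div_le_div_of_nonneg_right (rd_psi0_le_one x) (Real.sqrt_nonneg _)

theorem rd_psi_supp {x : ℝ × ℝ} (h : rdPsi x ≠ 0) : rtSq x < 2 :=
  rd_psi0_supp fun h0 => h (by unfold rdPsi; rw [h0, zero_div])

theorem rd_psi_contDiff : ContDiff ℝ ∞ rdPsi := by
  unfold rdPsi
  exact rd_psi0_contDiff.div_const _

theorem rd_psi_compact : HasCompactSupport rdPsi := by
  refine rd_psi0_compact.mono fun x hx => ?_
  simp only [Function.mem_support] at hx ⊢
  exact fun h => hx (by unfold rdPsi; rw [h, zero_div])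

end Claimed.Agent.R256
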